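import Vale.Agent.P011UT.Two
import Vale.Agent.P011UZ.Defs

/-!
The two-field norm lemma with signs, in the letters of the frame.
-/

set_option linter.all false

open NumberField IsDedekindDomain Polynomial Module

namespace Vale.Agent.P011UT

open Vale.Agent.P011.Arith
open Vale.Agent.P011.H327
open Vale.Agent.P011.H327.TN (OT Sp near_iff' comap_trans)

theorem exists_q {K : Type} [Field K] [NumberField K] {T : Set (HeightOneSpectrum (𝓞 K))}
    (hT : T.Finite) : ∃ q : K, q ≠ 0 ∧ ∀ v ∈ T, v.valuation K q < 1 := by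
  rcases T.eq_empty_or_nonempty with rfl | ⟨v0, hv0⟩
  · exact ⟨1, one_ne_zero, by simp⟩
  choose π hπ using fun v : HeightOneSpectrum (𝓞 K) => P011.Even.exists_val_lt_one v
  obtain ⟨q, hq, -⟩ := apx hT (fun v => (π v : K)) (fun v => v.valuation K (π v : K))
    (fun v => (Valuation.ne_zero_iff _).mpr (π v).ne_zero) (fun _ => 0) (fun _ => 1)
    (fun _ => one_pos)
  refine ⟨q, ?_, fun v hv => ?_⟩
  · rintro rfl
    have h1 := hq v0 hv0
    rw [zero_sub, Valuation.map_neg] at h1
    exact lt_irrefl _ h1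
  · have e : q = (q - π v) + π v := by ring
    rw [e]
    exact (v.valuation K).map_add_lt ((hq v hv).trans (hπ v)) (hπ v)

/-- **The two-field norm lemma for quadratic extensions of number fields.** -/
theorem tn2 : P011UZ.TN2 := by
  classical
  intro K _ _ T hT J pl hJ R R' _ _ _ _ _ _ _ _ h2 c hc hc0
  obtain ⟨q, hq0, hq⟩ := exists_q hT
  have h40 : (4 : K) * c ≠ 0 := mul_ne_zero (by norm_num) hc0
  have hcc : q * (4 * c) ≠ 0 := mul_ne_zero hq0 h40
  refine ⟨q * (4 * c), fun v hv => ?_, hcc, fun x hx hxR hnear => ?_⟩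
  · rw [map_mul, map_mul]
    exact mul_le_one' (hq v hv).le (mul_le_one' (val_four_le _) (hc v hv))
  have hA : (ov R T).Finite := ov_finite hT
  rw [near_iff' hT hcc] at hnear
  obtain ⟨v0, hv0, h3⟩ := two_pos h2 hA
  obtain ⟨V, hVf, hVA, h4⟩ := h3 (algebraMap K R c) ((_root_.map_ne_zero _).2 hc0) (by
    rintro v ⟨W, hW, hvW⟩
    exact (val_le_one_iff hvW c).2 (hc W hW)) x hx hxR (by
    rintro v ⟨W, hW, hvW⟩
    refine (hnear W hW v hvW).trans_lt ?_
    have e1 : (4 : R) * algebraMap K R c = algebraMap K R (4 * c) := by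
      rw [map_mul, map_ofNat]
    rw [e1, val_lt_val_iff hvW, map_mul]
    have e2 : W.valuation K (4 * c) ≠ 0 := (Valuation.ne_zero_iff _).2 h40
    exact mul_lt_of_lt_one_left (zero_lt_iff.2 e2) (hq W hW))
  choose bel hbel using fun w : HeightOneSpectrum (𝓞 R) => exists_below (F := K) w
  obtain ⟨j, hj⟩ := hJ ((insert v0 hVf.toFinset).image bel) (by
    intro W hW hWT
    rw [Finset.mem_image] at hW
    obtain ⟨v, hv, rfl⟩ := hW
    have hvA : v ∈ ov R T := ⟨_, hWT, hbel v⟩
    rcases Finset.mem_insert.1 hv with rfl | hv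
    · exact hv0 hvA
    · exact Set.disjoint_left.1 hVA (hVf.mem_toFinset.1 hv) hvA)
  refine ⟨j, ?_⟩
  intro M _ _ _ _ _ P hP hsf d hd
  have hKR : FiniteDimensional K R := Module.Finite.of_restrictScalars_finite ℚ K R
  have hM1 : FiniteDimensional K M := FiniteDimensional.trans K R M
  have hM2 : NumberField M := NumberField.of_module_finite K M
  have hhom : ∀ v : HeightOneSpectrum (𝓞 R), v = v0 ∨ v ∈ V →
      Nonempty (M →ₐ[R] v.adicCompletion R) := by
    intro v hv
    have hv1 : bel v ∈ pl j := hj (by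
      rw [Finset.coe_image]
      refine ⟨v, ?_, rfl⟩
      rw [Finset.mem_coe, Finset.mem_insert, hVf.mem_toFinset]
      exact hv)
    have h5 := hP _ hv1
    have : v.asIdeal.LiesOver (bel v).asIdeal := ⟨(hbel v).symm⟩
    have h6 := h5.map (SplitHom.adMap (K := K) (R := R) (bel v) v)
    rw [Polynomial.map_map] at h6
    have h7 : (SplitHom.adMap (K := K) (R := R) (bel v) v).comp
        (algebraMap K ((bel v).adicCompletion K)) =
        (algebraMap R (v.adicCompletion R)).comp (algebraMap K R) :=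
      RingHom.ext (SplitHom.adMap_algebraMap (bel v) v)
    rw [h7, ← Polynomial.map_map] at h6
    exact ⟨Polynomial.IsSplittingField.lift M (P.map (algebraMap K R)) h6⟩
  obtain ⟨x1, y, hy, hxy, hpos, h8, h9⟩ := h4 M hhom (algebraMap K R d)
    ((_root_.map_ne_zero _).2 hd)
  have hx1 : x1 ≠ 0 := by
    rintro rfl
    have : FiniteDimensional R R' := Module.Finite.of_restrictScalars_finite ℚ R R'
    rw [Algebra.norm_zero, zero_mul] at hxy
    exact hx hxy
  refine ⟨x1, y, hx1, hy, hxy, hpos, ?_, ?_⟩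
  · rw [near_iff' hT hc0]
    intro W hW w hw
    obtain ⟨u, hu⟩ := exists_below (F := R) w
    have hu1 : u ∈ ov R T := ⟨W, hW, by rw [← comap_trans w u hu]; exact hw⟩
    have h10 := h8 u hu1 w hu
    rw [← IsScalarTower.algebraMap_apply K R R'] at h10
    exact h10.le
  · rw [near_iff' hT hd]
    intro W hW w hw
    obtain ⟨u, hu⟩ := exists_below (F := R) w
    have hu1 : u ∈ ov R T := ⟨W, hW, by rw [← comap_trans w u hu]; exact hw⟩
    have h10 := h9 u hu1 w hu
    rw [← IsScalarTower.algebraMap_apply K R M] at h10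
    exact h10.le

end Vale.Agent.P011UT
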