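import Vale.Agent.P011.Even.Pnc

/-!
Approximation on the conics, with signs.
-/

set_option linter.all false

open NumberField IsDedekindDomain Module

namespace Vale.Agent.P011UT

open Vale.Agent.P011.Arith Vale.Agent.P011.Even

variable {F : Type} [Field F] [NumberField F]

/-- Weak approximation at finite and real places. -/
theorem apx {S : Set (HeightOneSpectrum (𝓞 F))} (hS : S.Finite)
    (x : HeightOneSpectrum (𝓞 F) → F) (γ : HeightOneSpectrum (𝓞 F) → Z0) (hγ : ∀ v, γ v ≠ 0)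
    (t : (F →+* ℝ) → F) (δ : (F →+* ℝ) → ℝ) (hδ : ∀ φ, 0 < δ φ) :
    ∃ f : F, (∀ v ∈ S, v.valuation F (f - x v) < γ v) ∧ ∀ φ : F →+* ℝ, |φ f - φ (t φ)| < δ φ := by
  choose g hg using fun v : HeightOneSpectrum (𝓞 F) => v.valuation_surjective F (γ v)
  have hg0 : ∀ v, g v ≠ 0 := by
    intro v h
    have h1 := hg v
    rw [h, map_zero] at h1
    exact hγ v h1.symm
  obtain ⟨f, hf⟩ := approx (SP S) (SP_finite hS) (Sum.elim x t)
    (Sum.elim (fun v => plAbv (Sum.inl v) (g v)) δ) (by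
      rintro (v | φ)
      · exact (plAbv (Sum.inl v)).pos (hg0 v)
      · exact hδ φ)
  refine ⟨f, fun v hv => ?_, fun φ => ?_⟩
  · have h1 : plAbv (Sum.inl v) (f - x v) < plAbv (Sum.inl v) (g v) :=
      hf (Sum.inl v) (inl_mem_SP.mpr hv)
    rw [plAbv_lt, hg] at h1
    exact h1
  · have h1 : plAbv (Sum.inr φ) (f - t φ) < δ φ := hf (Sum.inr φ) inr_mem_SP
    rw [plAbv_inr, map_sub] at h1
    exact h1

theorem min_ne {x y : Z0} (hx : x ≠ 0) (hy : y ≠ 0) : min x y ≠ 0 := by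
  rcases min_choice x y with h | h <;> rw [h] <;> assumption

/-- Norms close to one with prescribed signs. -/
theorem sgn_norm {S : Set (HeightOneSpectrum (𝓞 F))} (hS : S.Finite) (a c : Fˣ)
    (h : ∀ φ : F →+* ℝ, c ∈ NF a ⊔ LSR φ) (γ : HeightOneSpectrum (𝓞 F) → Z0)
    (hγ : ∀ v, γ v ≠ 0) : ∃ u ∈ NF a, (∀ v ∈ S, v.valuation F ((u : F) - 1) < γ v) ∧
      ∀ φ : F →+* ℝ, c * u ∈ LSR φ := by
  classical
  have hva : ∀ v : HeightOneSpectrum (𝓞 F), v.valuation F (a : F) ≠ 0 := fun v =>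
    (Valuation.ne_zero_iff _).mpr a.ne_zero
  obtain ⟨Y, hY, hR⟩ := apx hS (fun _ => 0) (fun v => min 1 (γ v / v.valuation F (a : F)))
    (fun v => min_ne one_ne_zero (div_ne_zero (hγ v) (hva v)))
    (fun φ => if 0 < φ c then 0 else 2 + (a : F)⁻¹)
    (fun φ => if 0 < φ c then (1 + |φ a|)⁻¹ else 1) (fun φ => by
      by_cases h1 : 0 < φ c
      · rw [if_pos h1]; positivity
      · rw [if_neg h1]; exact one_pos)
  have hs : ∀ φ : F →+* ℝ, 0 < φ c * φ (1 - a * Y ^ 2) := by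
    intro φ
    have h1 := hR φ
    rw [map_sub, map_mul, map_pow, map_one]
    by_cases hc : 0 < φ c
    · rw [if_pos hc, if_pos hc, map_zero, sub_zero] at h1
      refine mul_pos hc ?_
      have h2 : |φ Y| * (1 + |φ a|) < 1 := by
        rwa [← lt_div_iff₀ (by positivity), one_div]
      have h3 : φ a * φ Y ^ 2 ≤ |φ a| * (|φ Y| * |φ Y|) := by
        rw [abs_mul_abs_self, ← sq]
        exact mul_le_mul_of_nonneg_right (le_abs_self _) (sq_nonneg _)
      have h4 := abs_nonneg (φ Y)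
      have h5 := abs_nonneg (φ a)
      have h6 : |φ Y| ≤ 1 := by nlinarith [mul_nonneg h4 h5]
      have h7 : |φ a| * (|φ Y| * |φ Y|) ≤ |φ a| * |φ Y| :=
        mul_le_mul_of_nonneg_left (mul_le_of_le_one_left h4 h6) h5
      nlinarith
    · rw [if_neg hc, if_neg hc, map_add, map_inv₀, map_ofNat] at h1
      have hc' : φ c < 0 := notMem_LSR.mp hc
      have ha : 0 < φ a := by
        by_contra ha
        have h2 := h φ
        rw [sup_eq_right.mpr (NF_le_LSR (notMem_LSR.mp ha))] at h2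
        exact hc h2
      refine mul_pos_of_neg_of_neg hc' ?_
      have h2 : 1 + (φ a)⁻¹ < φ Y := by
        have := (abs_lt.mp h1).1
        linarith
      have h3 : 0 < (φ a)⁻¹ := inv_pos.mpr ha
      have h4 : φ a * (φ a)⁻¹ = 1 := mul_inv_cancel₀ ha.ne'
      have h5 : (φ a)⁻¹ < φ Y ^ 2 := by nlinarith
      have h6 := mul_lt_mul_of_pos_left h5 ha
      linarith
  by_cases h0 : 1 - (a : F) * Y ^ 2 = 0
  · have hsq : a ∈ Sq F := by
      refine mem_Sq_iff.mpr ⟨a * Y, ?_⟩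
      linear_combination (a : F) * h0
    refine ⟨1, Subgroup.one_mem _, fun v _ => ?_, fun φ => ?_⟩
    · rw [Units.val_one, sub_self, map_zero]
      exact zero_lt_iff.mpr (hγ v)
    · have h1 := hs φ
      rw [h0, map_zero, mul_zero] at h1
      exact absurd h1 (lt_irrefl _)
  refine ⟨Units.mk0 _ h0, ⟨1, Y, by rw [Units.val_mk0]; ring⟩, fun v hv => ?_, fun φ => ?_⟩
  · have h1 := hY v hv
    rw [sub_zero, lt_min_iff, lt_div_iff₀ (zero_lt_iff.mpr (hva v))] at h1
    have e : ((Units.mk0 _ h0 : Fˣ) : F) - 1 = -(Y * (Y * a)) := by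
      rw [Units.val_mk0]; ring
    rw [e, Valuation.map_neg, map_mul, map_mul]
    exact lt_of_le_of_lt (mul_le_of_le_one_left' h1.1.le) h1.2
  · rw [mem_LSR, Units.val_mul, map_mul, Units.val_mk0]
    exact hs φ

/-- An approximate square root which is close to one. -/
theorem sqrt_near (w : Valuation F Z0) {b : Fˣ} {c : F} (hc : w c ≤ 1)
    (hb : w ((b : F) - 1) < w (4 * c)) {γ : Z0} (hγ : γ ≠ 0) :
    ∃ y : F, w (y - 1) < w c ∧ w ((b : F) - y ^ 2) < γ := by
  have h4c : w (4 * c) ≤ w 4 := by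
    rw [map_mul]
    exact mul_le_of_le_one_right' hc
  have h41 : w (4 * c) ≤ 1 := h4c.trans (val_four_le w)
  have h4c0 : w (4 * c) ≠ 0 := fun h => by
    rw [h] at hb
    exact absurd hb (not_lt.mpr zero_le)
  have hb1 : w (b : F) = 1 := by
    have h1 := w.map_one_add_of_lt (x := (b : F) - 1) (hb.trans_le h41)
    rwa [add_sub_cancel] at h1
  obtain ⟨y, hy⟩ := LS_newton' (LS_of_close (hb.trans_le h4c)) (min_ne hγ h4c0)
  have hy0 : (y : F) ≠ 0 := y.ne_zero
  rw [lt_min_iff] at hy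
  have hy1 : w ((b : F) / (y : F) ^ 2) = 1 := by
    have h1 := w.map_one_add_of_lt (x := (b : F) / (y : F) ^ 2 - 1) (hy.2.trans_le h41)
    rwa [add_sub_cancel] at h1
  have hy2 : w ((y : F) ^ 2) = 1 := by
    rw [map_div₀, hb1, one_div, inv_eq_one] at hy1
    exact hy1
  have e : (b : F) - (y : F) ^ 2 = ((b : F) / (y : F) ^ 2 - 1) * (y : F) ^ 2 := by
    field_simp
  have h1 : w ((b : F) - (y : F) ^ 2) = w ((b : F) / (y : F) ^ 2 - 1) := by
    rw [e, map_mul, hy2, mul_one]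
  have h2 : w (((y : F) - 1) * ((y : F) + 1)) < w (4 * c) := by
    have e2 : ((y : F) - 1) * ((y : F) + 1) = ((b : F) - 1) - ((b : F) - (y : F) ^ 2) := by ring
    rw [e2]
    exact w.map_sub_lt hb (h1 ▸ hy.2)
  have key : ∀ s t : F, w 2 ≤ w t → w (s * t) < w (4 * c) → w s < w c := by
    intro s t ht hst
    have e4 : (4 : F) * c = c * 2 * 2 := by ring
    rw [e4, map_mul, map_mul, map_mul] at hst
    have h5 : w s * w 2 < w c * w 2 := by
      calc w s * w 2 ≤ w s * w t := mul_le_mul' le_rfl ht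
        _ < w c * w 2 * w 2 := hst
        _ ≤ w c * w 2 := mul_le_of_le_one_right' (val_two_le w)
    exact lt_of_mul_lt_mul_right' h5
  by_cases h3 : w 2 ≤ w ((y : F) + 1)
  · exact ⟨y, key _ _ h3 h2, h1 ▸ hy.1⟩
  · have h4 : w 2 ≤ w ((y : F) - 1) := by
      by_contra h4
      have h5 := w.map_sub_lt (not_le.mp h3) (not_le.mp h4)
      have e5 : (y : F) + 1 - ((y : F) - 1) = 2 := by ring
      rw [e5] at h5
      exact lt_irrefl _ h5
    refine ⟨-y, ?_, ?_⟩
    · have e6 : -(y : F) - 1 = -((y : F) + 1) := by ring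
      rw [e6, Valuation.map_neg]
      exact key _ _ h4 (by rwa [mul_comm])
    · rw [neg_sq, h1]
      exact hy.1

/-- The local estimate for the second intersection point. -/
theorem conic_loc (w : Valuation F Z0) {a b p q : F} (hb : b = p ^ 2 - a * q ^ 2)
    (haq : a * q ^ 2 ≠ 0) {γ : Z0} (hγ : γ ≠ 0) : ∃ δ : Z0, δ ≠ 0 ∧ ∀ s : F, w s = 1 →
      w (b - s ^ 2) < δ → w ((b - s ^ 2) / (s ^ 2 + b - 2 * p * s)) < γ := by
  have h2 : w (2 : F) ≠ 0 := val_two_ne w
  have hA : w (a * q ^ 2) ≠ 0 := (Valuation.ne_zero_iff _).mpr haq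
  have hM : max 1 (w p) ≠ 0 := fun h => by
    have h1 : (1 : Z0) ≤ 0 := h ▸ le_max_left _ _
    exact one_ne_zero (le_antisymm h1 zero_le)
  set m : Z0 := w 2 * (w (a * q ^ 2) / max 1 (w p)) with hm
  have hm0 : m ≠ 0 := mul_ne_zero h2 (div_ne_zero hA hM)
  refine ⟨min (w (a * q ^ 2)) (min m (γ * m)),
    min_ne hA (min_ne hm0 (mul_ne_zero hγ hm0)), fun s hs hd => ?_⟩
  rw [lt_min_iff, lt_min_iff] at hd
  obtain ⟨h3, h4, h5⟩ := hd
  have h6 : w ((s - p) * (s + p)) = w (a * q ^ 2) := by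
    have e : (s - p) * (s + p) = -(a * q ^ 2 + (b - s ^ 2)) := by rw [hb]; ring
    rw [e, Valuation.map_neg]
    exact w.map_add_eq_of_lt_left h3
  have h7 : w (s + p) ≤ max 1 (w p) := by
    have := w.map_add s p
    rwa [hs] at this
  have h8 : w (a * q ^ 2) / max 1 (w p) ≤ w (s - p) := by
    rw [div_le_iff₀ (zero_lt_iff.mpr hM), ← h6, map_mul]
    exact mul_le_mul' le_rfl h7
  have h9 : m ≤ w (2 * s * (s - p)) := by
    rw [map_mul, map_mul, hs, mul_one]
    exact mul_le_mul' le_rfl h8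
  have h10 : w (s ^ 2 + b - 2 * p * s) = w (2 * s * (s - p)) := by
    have e : s ^ 2 + b - 2 * p * s = 2 * s * (s - p) + (b - s ^ 2) := by ring
    rw [e]
    exact w.map_add_eq_of_lt_left (h4.trans_le h9)
  have h11 : 0 < w (2 * s * (s - p)) := (zero_lt_iff.mpr hm0).trans_le h9
  rw [map_div₀, h10, div_lt_iff₀ h11]
  exact h5.trans_le (mul_le_mul' le_rfl h9)

theorem conic_real {a b p q s : ℝ} (hb : b = p ^ 2 - a * q ^ 2) (hb0 : 0 < b)
    (haq : 0 < a * q ^ 2) (hs : |s - abs p| < min 1 (min |p| (a * q ^ 2))) :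
    0 < s + (b - s ^ 2) / (s ^ 2 + b - 2 * p * s) * (s - p) := by
  rw [lt_min_iff, lt_min_iff] at hs
  obtain ⟨h1, h2, h3⟩ := hs
  have hs0 : 0 < s := by
    have := (abs_lt.mp h2).1
    linarith
  have key : s ^ 2 + b - 2 * p * s ≠ 0 →
      s + (b - s ^ 2) / (s ^ 2 + b - 2 * p * s) * (s - p) =
        (2 * b * s - p * (s ^ 2 + b)) / (s ^ 2 + b - 2 * p * s) := by
    intro h
    rw [eq_div_iff h]
    linear_combination (s - p) * div_mul_cancel₀ (b - s ^ 2) h
  rcases le_or_gt p 0 with hp | hp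
  · have hd : 0 < s ^ 2 + b - 2 * p * s := by nlinarith [mul_nonneg (neg_nonneg.mpr hp) hs0.le]
    rw [key hd.ne']
    refine div_pos ?_ hd
    have h4 : 0 ≤ -p * (s ^ 2 + b) := mul_nonneg (neg_nonneg.mpr hp) (by positivity)
    have h5 : 0 < b * s := mul_pos hb0 hs0
    linarith
  · rw [abs_of_pos hp] at h1 h3
    have h4 : (s - p) ^ 2 < a * q ^ 2 := by
      rw [← sq_abs (s - p)]
      have h5 := abs_nonneg (s - p)
      nlinarith
    have hd : s ^ 2 + b - 2 * p * s < 0 := by rw [hb]; nlinarith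
    rw [key hd.ne]
    refine div_pos_of_neg_of_neg ?_ hd
    have h5 : 0 < p * (p * (s ^ 2 + b) - 2 * b * s) := by
      have e : p * (p * (s ^ 2 + b) - 2 * b * s) = (p * s - b) ^ 2 + b * (a * q ^ 2) := by
        rw [hb]; ring
      rw [e]
      have := mul_pos hb0 haq
      positivity
    have h6 := (mul_pos_iff_of_pos_left hp).mp h5
    linarith

/-- Points of a conic which are close to `(1, 0)` and have a positive first coordinate. -/
theorem conic {a b : Fˣ} (ha : ¬ IsSquare (a : F)) (hb : b ∈ NF a)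
    (hbR : ∀ φ : F →+* ℝ, 0 < φ b) {S : Set (HeightOneSpectrum (𝓞 F))} (hS : S.Finite)
    (c : HeightOneSpectrum (𝓞 F) → F) (hc : ∀ v ∈ S, c v ≠ 0 ∧ v.valuation F (c v) ≤ 1)
    (hbS : ∀ v ∈ S, v.valuation F ((b : F) - 1) < v.valuation F (4 * c v))
    (γ : HeightOneSpectrum (𝓞 F) → Z0) (hγ : ∀ v, γ v ≠ 0) :
    ∃ X Y : F, (b : F) = X ^ 2 - a * Y ^ 2 ∧
      (∀ v ∈ S, v.valuation F (X - 1) < v.valuation F (c v) ∧ v.valuation F Y < γ v) ∧
      ∀ φ : F →+* ℝ, 0 < φ a → 0 < φ X := by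
  classical
  obtain ⟨p, q, hpq, hq⟩ : ∃ p q : F, (b : F) = p ^ 2 - a * q ^ 2 ∧ q ≠ 0 := by
    obtain ⟨p, q, hpq⟩ := hb
    by_cases hq : q = 0
    · have ha1 : 1 - (a : F) ≠ 0 := fun h => ha ⟨1, by linear_combination -h⟩
      have hp : p ≠ 0 := by
        rintro rfl
        apply b.ne_zero
        rw [hpq, hq]; ring
      refine ⟨p * (1 + a) / (1 - a), p * 2 / (1 - a), ?_,
        div_ne_zero (mul_ne_zero hp two_ne_zero) ha1⟩
      rw [hpq, hq]
      field_simp
      ring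
    · exact ⟨p, q, hpq, hq⟩
  have haq : (a : F) * q ^ 2 ≠ 0 := mul_ne_zero a.ne_zero (pow_ne_zero _ hq)
  have hloc : ∀ v : HeightOneSpectrum (𝓞 F), ∃ (y : F) (ε : Z0), ε ≠ 0 ∧ (v ∈ S → ∀ s : F,
      v.valuation F (s - y) < ε →
      v.valuation F (s + ((b : F) - s ^ 2) / (s ^ 2 + b - 2 * p * s) * (s - p) - 1) <
        v.valuation F (c v) ∧
      v.valuation F (-(((b : F) - s ^ 2) / (s ^ 2 + b - 2 * p * s) * q)) < γ v) := by
    intro v
    by_cases hv : v ∈ S
    swap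
    · exact ⟨0, 1, one_ne_zero, fun h => absurd h hv⟩
    set w := v.valuation F with hw
    have hc0 : w (c v) ≠ 0 := (Valuation.ne_zero_iff _).mpr (hc v hv).1
    have hq0 : w q ≠ 0 := (Valuation.ne_zero_iff _).mpr hq
    have hM : max 1 (w p) ≠ 0 := fun h => by
      have h1 : (1 : Z0) ≤ 0 := h ▸ le_max_left _ _
      exact one_ne_zero (le_antisymm h1 zero_le)
    obtain ⟨δ, hδ, hδ'⟩ := conic_loc w hpq haq
      (min_ne (div_ne_zero hc0 hM) (div_ne_zero (hγ v) hq0))
    obtain ⟨y, hy1, hy2⟩ := sqrt_near w (hc v hv).2 (hbS v hv) hδ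
    refine ⟨y, min (w (c v)) δ, min_ne hc0 hδ, fun _ s hs => ?_⟩
    rw [lt_min_iff] at hs
    have hs1 : w (s - 1) < w (c v) := by
      have e : s - 1 = (s - y) + (y - 1) := by ring
      rw [e]
      exact w.map_add_lt hs.1 hy1
    have hone : ∀ z : F, w (z - 1) < w (c v) → w z = 1 := by
      intro z hz
      have h1 := w.map_one_add_of_lt (x := z - 1) (hz.trans_le (hc v hv).2)
      rwa [add_sub_cancel] at h1
    have hs2 : w ((b : F) - s ^ 2) < δ := by
      have e : (b : F) - s ^ 2 = ((b : F) - y ^ 2) - (s - y) * (s + y) := by ring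
      rw [e]
      refine w.map_sub_lt hy2 ?_
      rw [map_mul]
      refine lt_of_le_of_lt (mul_le_of_le_one_right' ?_) hs.2
      exact w.map_add_le (hone s hs1).le (hone y hy1).le
    have h3 := hδ' s (hone s hs1) hs2
    rw [lt_min_iff, lt_div_iff₀ (zero_lt_iff.mpr hM), lt_div_iff₀ (zero_lt_iff.mpr hq0)] at h3
    refine ⟨?_, ?_⟩
    · rw [add_sub_right_comm]
      refine w.map_add_lt hs1 ?_
      rw [map_mul]
      refine lt_of_le_of_lt (mul_le_mul' le_rfl ?_) h3.1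
      have := w.map_sub s p
      rwa [hone s hs1] at this
    · rw [Valuation.map_neg, map_mul]
      exact h3.2
  choose y ε hε hloc using hloc
  obtain ⟨s, hs1, hs2⟩ := apx hS y ε hε (fun φ => if 0 ≤ φ p then p else -p)
    (fun φ => if 0 < φ a then min 1 (min |φ p| (φ a * φ q ^ 2)) else 1) (fun φ => by
      by_cases h : 0 < φ a
      · rw [if_pos h]
        have h1 : 0 < φ a * φ q ^ 2 :=
          mul_pos h (sq_pos_of_ne_zero ((_root_.map_ne_zero φ).mpr hq))
        have h2 := hbR φ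
        rw [hpq, map_sub, map_mul, map_pow, map_pow] at h2
        have h3 : φ p ≠ 0 := by
          intro h3
          rw [h3] at h2
          linarith
        exact lt_min one_pos (lt_min (abs_pos.mpr h3) h1)
      · rw [if_neg h]; exact one_pos)
  have hden : s ^ 2 + b - 2 * p * s ≠ 0 := by
    intro h
    refine ha ⟨(s - p) / q, ?_⟩
    field_simp
    linear_combination hpq - h
  refine ⟨s + ((b : F) - s ^ 2) / (s ^ 2 + b - 2 * p * s) * (s - p),
    -(((b : F) - s ^ 2) / (s ^ 2 + b - 2 * p * s) * q), ?_,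
    fun v hv => hloc v hv s (hs1 v hv), fun φ hφ => ?_⟩
  · have e : (a : F) * q ^ 2 = p ^ 2 - b := by linear_combination hpq
    have ht : ((b : F) - s ^ 2) / (s ^ 2 + b - 2 * p * s) * (s ^ 2 + b - 2 * p * s) =
        (b : F) - s ^ 2 := div_mul_cancel₀ _ hden
    generalize ((b : F) - s ^ 2) / (s ^ 2 + b - 2 * p * s) = t at ht
    linear_combination t ^ 2 * e - (t + 1) * ht
  · have h1 := hs2 φ
    rw [if_pos hφ] at h1
    have h2 : φ (if 0 ≤ φ p then p else -p) = |φ p| := by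
      by_cases h : 0 ≤ φ p
      · rw [if_pos h, abs_of_nonneg h]
      · rw [if_neg h, map_neg, abs_of_neg (not_le.mp h)]
    rw [h2] at h1
    have h3 : φ b = φ p ^ 2 - φ a * φ q ^ 2 := by
      rw [hpq, map_sub, map_mul, map_pow, map_pow]
    have h4 := conic_real h3 (hbR φ)
      (mul_pos hφ (sq_pos_of_ne_zero ((_root_.map_ne_zero φ).mpr hq))) h1
    simpa only [map_add, map_mul, map_div₀, map_sub, map_pow, map_ofNat] using h4

end Vale.Agent.P011UT
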