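import Vale.Agent.P011.Even.Pnc
import Vale.Agent.P011.H929.Odd.LocHom

/-!
Norms with prescribed bad places, for a quadratic extension.
-/

set_option linter.all false

open NumberField IsDedekindDomain Module

namespace Vale.Agent.P011UT

open Vale.Agent.P011.Arith Vale.Agent.P011.Even

variable {F : Type} [Field F] [NumberField F]

/-- A place which is not isolated, outside a given finite set. -/
theorem exists_v0 {a : Fˣ} (ha : ¬ IsSquare (a : F)) {A : Set (HeightOneSpectrum (𝓞 F))}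
    (hA : A.Finite) : ∃ v : HeightOneSpectrum (𝓞 F), v ∉ A ∧ a ∉ LS (v.valuation F) ∧
      ¬ Isol a (Sum.inl v) := by
  classical
  obtain ⟨p, hp, hI⟩ := exists_not_isol ha
  by_contra hcon
  have hiso : ∀ r : Pl F, r ∉ SP A → a ∉ LSp r → Isol a r := by
    rintro (v | φ) hr har
    · by_contra h
      exact hcon ⟨v, fun hv => hr (inl_mem_SP.mpr hv), har, h⟩
    · exact absurd inr_mem_SP hr
  have hpA : p ∈ SP A := by
    by_contra h
    exact hI (hiso p h hp)
  obtain ⟨g, hg⟩ : ∃ g, g ∉ NF a ⊔ LSp p := by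
    by_contra hc
    push Not at hc
    exact NF_sup_ne_top a p hp (eq_top_iff.mpr fun g _ => hc g)
  obtain ⟨f, hf⟩ := weak_approx' hA (fun r => if r = p then g else 1)
  have hfp : p ∈ bad a f := by
    intro h
    have h1 := hf p hpA
    rw [if_pos rfl] at h1
    have h2 := Subgroup.div_mem _ h (Subgroup.mem_sup_right h1 : f / g ∈ NF a ⊔ LSp p)
    rw [div_div_cancel] at h2
    exact hg h2
  obtain ⟨b, hb⟩ := exists_bad_of_isol (a := a) (B := bad a f \ {p}) (bad_finite a f).sdiff (by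
    rintro r ⟨hr, hrp⟩
    refine hiso r (fun hrA => ?_) (notMem_LSp_of_bad hr)
    have h1 := hf r hrA
    rw [if_neg (show r ≠ p from hrp), div_one] at h1
    exact hr (Subgroup.mem_sup_right h1))
  refine hI ⟨f * b, ?_⟩
  rw [bad_mul, hb]
  ext r
  simp only [Set.mem_symmDiff, Set.mem_sdiff, Set.mem_singleton_iff]
  constructor
  · rintro (⟨h1, h2⟩ | ⟨h1, h2⟩)
    · by_contra h
      exact h2 ⟨h1, h⟩
    · exact absurd h1.1 h2
  · rintro rfl
    exact Or.inl ⟨hfp, fun h => h.2 rfl⟩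

theorem even_symm {α : Type} {X Y : Set α} (hX : X.Finite) (hY : Y.Finite)
    (h1 : ¬ Even X.ncard) (h2 : ¬ Even Y.ncard) : Even (symmDiff X Y).ncard := by
  have e1 := Set.ncard_inter_add_ncard_sdiff_eq_ncard X Y hX
  have e2 := Set.ncard_inter_add_ncard_sdiff_eq_ncard Y X hY
  have e3 : (symmDiff X Y).ncard = (X \ Y).ncard + (Y \ X).ncard := by
    rw [Set.symmDiff_def]
    exact Set.ncard_union_eq disjoint_sdiff_sdiff hX.sdiff hY.sdiff
  rw [Set.inter_comm] at e2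
  rw [Nat.even_iff] at h1 h2 ⊢
  omega

/-- The realizable sets of places have index at most two. -/
theorem real_symm {a : Fˣ} (ha : ¬ IsSquare (a : F)) {B B' : Set (Pl F)} (hB : B.Finite)
    (hB' : B'.Finite) (hBa : ∀ p ∈ B, a ∉ LSp p) (hBa' : ∀ p ∈ B', a ∉ LSp p)
    (h1 : ¬ ∃ b : Fˣ, bad a b = B) (h2 : ¬ ∃ b : Fˣ, bad a b = B') :
    ∃ b : Fˣ, bad a b = symmDiff B B' := by
  rw [exists_bad_iff ha hB hBa] at h1
  rw [exists_bad_iff ha hB' hBa'] at h2
  have hf : (symmDiff B B').Finite := (hB.union hB').subset (by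
    rintro p (h | h)
    · exact Or.inl h.1
    · exact Or.inr h.1)
  rw [exists_bad_iff ha hf (by
    rintro p (h | h)
    · exact hBa p h.1
    · exact hBa' p h.1)]
  have e : {p | p ∈ symmDiff B B' ∧ ¬ Isol a p} =
      symmDiff {p | p ∈ B ∧ ¬ Isol a p} {p | p ∈ B' ∧ ¬ Isol a p} := by
    ext p
    simp only [Set.mem_symmDiff, Set.mem_ofPred_eq]
    tauto
  rw [e]
  exact even_symm (hB.subset fun p hp => hp.1) (hB'.subset fun p hp => hp.1) h1 h2

variable {E : Type} [Field E] [NumberField E] [Algebra F E]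

/-- The bad places of a family of local elements. -/
def Bf (a : Fˣ) (T : Set (Pl F)) (e : Pl F → Eˣ) : Set (Pl E) :=
  {q | ∃ p ∈ T, Above q p ∧ q ∈ bad (inc F E a) (e p)}

theorem Bf_finite (a : Fˣ) {T : Set (Pl F)} (hT : T.Finite) (e : Pl F → Eˣ) :
    (Bf a T e).Finite := by
  refine (hT.biUnion fun p _ => above_set_finite (E := E) p).subset ?_
  rintro q ⟨p, hp, hq, -⟩
  exact Set.mem_biUnion hp hq

theorem Bf_ns (a : Fˣ) (T : Set (Pl F)) (e : Pl F → Eˣ) :
    ∀ q ∈ Bf a T e, inc F E a ∉ LSp q := by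
  rintro q ⟨p, -, -, h⟩
  exact notMem_LSp_of_bad h

theorem mem_Bf {a : Fˣ} {T : Set (Pl F)} {e : Pl F → Eˣ} {p : Pl F} (hp : p ∈ T) {q : Pl E}
    (hq : Above q p) : q ∈ Bf a T e ↔ q ∈ bad (inc F E a) (e p) := by
  constructor
  · rintro ⟨p', -, hq', h⟩
    rw [above_unique hq hq']
    exact h
  · exact fun h => ⟨p, hp, hq, h⟩

theorem Bf_mul (a : Fˣ) (T : Set (Pl F)) (e e' : Pl F → Eˣ) :
    symmDiff (Bf a T e) (Bf a T e') = Bf a T (fun p => e p * e' p) := by
  ext q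
  by_cases h : ∃ p ∈ T, Above q p
  · obtain ⟨p, hp, hq⟩ := h
    rw [Set.mem_symmDiff, mem_Bf hp hq, mem_Bf hp hq, mem_Bf hp hq, bad_mul, Set.mem_symmDiff]
  · have h1 : ∀ f : Pl F → Eˣ, q ∉ Bf a T f := by
      rintro f ⟨p, hp, hq, -⟩
      exact h ⟨p, hp, hq⟩
    rw [Set.mem_symmDiff]
    exact iff_of_false (by rintro (h2 | h2) <;> exact h1 _ h2.1) (h1 _)

theorem bad_of_Bf {a : Fˣ} {T : Set (Pl F)} {e : Pl F → Eˣ} {c : Eˣ}
    (h : bad (inc F E a) c = Bf a T e) (p : Pl F) :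
    p ∈ bad a (nrm F E c) ↔ p ∈ T ∧ p ∈ bad a (nrm F E (e p)) := by
  by_cases hp : p ∈ T
  · have h1 : p ∉ bad a (nrm F E (c * e p)) := by
      refine nrm_good fun q hq => ?_
      rw [bad_mul, h, Set.mem_symmDiff, mem_Bf hp hq]
      tauto
    rw [map_mul, bad_mul, Set.mem_symmDiff] at h1
    tauto
  · refine iff_of_false (nrm_good fun q hq hqb => ?_) fun h1 => hp h1.1
    rw [h] at hqb
    obtain ⟨p', hp', hq', -⟩ := hqb
    exact hp (above_unique hq hq' ▸ hp')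

/-- At a place with a factor of degree one the norms are not all local norms. -/
theorem exists_bad_nrm {a : Fˣ} {v : HeightOneSpectrum (𝓞 F)} (hv : a ∉ LS (v.valuation F))
    (h : Nonempty (E →ₐ[F] v.adicCompletion F)) :
    ∃ e : Eˣ, (Sum.inl v : Pl F) ∈ bad a (nrm F E e) := by
  have hfd : FiniteDimensional F E := Module.Finite.of_restrictScalars_finite ℚ F E
  obtain ⟨g, hg⟩ : ∃ g, g ∉ NF a ⊔ LS (v.valuation F) := by
    by_contra hc
    push Not at hc
    exact NF_sup_ne_top a (Sum.inl v) hv (eq_top_iff.mpr fun g _ => hc g)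
  obtain ⟨e, he⟩ := P011.H929.loc_hom (E := E) v h g.ne_zero (val_four_ne (v.valuation F))
  have he0 : e ≠ 0 := by
    rintro rfl
    rw [Algebra.norm_zero, div_zero, zero_sub, Valuation.map_neg, map_one] at he
    exact absurd he (not_lt.mpr (val_four_le _))
  refine ⟨Units.mk0 e he0, fun h1 => hg ?_⟩
  have h2 : g / nrm F E (Units.mk0 e he0) ∈ LS (v.valuation F) := by
    refine LS_of_close ?_
    rw [Units.val_div_eq_div_val, nrm_val, Units.val_mk0]
    exact he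
  have h3 := Subgroup.mul_mem _
    (Subgroup.mem_sup_right h2 : _ ∈ NF a ⊔ LS (v.valuation F)) h1
  rwa [div_mul_cancel] at h3

/-- An element whose norm is in the class of `x`, and which is a local norm at the other
places. -/
theorem exists_c {a : Fˣ} {v0 : HeightOneSpectrum (𝓞 F)} (hv0 : a ∉ LS (v0.valuation F))
    (hI : ¬ Isol a (Sum.inl v0)) (x : Fˣ) (hx : ∀ φ : F →+* ℝ, x ∈ LSR φ)
    (hhom : ∀ v : HeightOneSpectrum (𝓞 F), v = v0 ∨ (Sum.inl v : Pl F) ∈ bad a x →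
      Nonempty (E →ₐ[F] v.adicCompletion F)) :
    ∃ c : Eˣ, nrm F E c * x ∈ NF a ∧ ∀ q ∈ bad (inc F E a) c,
      ∃ v : HeightOneSpectrum (𝓞 F), (v = v0 ∨ (Sum.inl v : Pl F) ∈ bad a x) ∧
        Above q (Sum.inl v : Pl F) := by
  classical
  set T : Set (Pl F) := insert (Sum.inl v0) (bad a x) with hT
  have hTf : T.Finite := (bad_finite a x).insert _
  have hTe : ∀ p ∈ T, ∃ v : HeightOneSpectrum (𝓞 F), p = Sum.inl v ∧
      (v = v0 ∨ (Sum.inl v : Pl F) ∈ bad a x) := by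
    rintro (v | φ) (h | h)
    · exact ⟨v, rfl, Or.inl (Sum.inl_injective h)⟩
    · exact ⟨v, rfl, Or.inr h⟩
    · exact absurd h (by simp)
    · exact absurd (Subgroup.mem_sup_right (hx φ)) h
  have hloc : ∀ (W : Set (Pl F)), W ⊆ T → ∃ e : Pl F → Eˣ, ∀ p,
      (p ∈ T ∧ p ∈ bad a (nrm F E (e p))) ↔ p ∈ W := by
    intro W hW
    have h1 : ∀ p : Pl F, ∃ e : Eˣ, (p ∈ T ∧ p ∈ bad a (nrm F E e)) ↔ p ∈ W := by
      intro p
      by_cases hp : p ∈ W
      · obtain ⟨v, rfl, hv⟩ := hTe p (hW hp)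
        obtain ⟨e, he⟩ := exists_bad_nrm (E := E) (a := a) (v := v) (by
          rcases hv with rfl | hv
          · exact hv0
          · exact notMem_LSp_of_bad hv) (hhom v hv)
        exact ⟨e, iff_of_true ⟨hW hp, he⟩ hp⟩
      · refine ⟨1, iff_of_false (fun h => ?_) hp⟩
        rw [map_one, bad_one] at h
        exact h.2
    choose e he using h1
    exact ⟨e, he⟩
  obtain ⟨e0, he0⟩ := hloc {Sum.inl v0} (by
    rintro p rfl
    exact Set.mem_insert _ _)
  obtain ⟨e1, he1⟩ := hloc (bad a x) (Set.subset_insert _ _)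
  have haE : ¬ IsSquare ((inc F E a : Eˣ) : E) := by
    intro h
    have h1 := ((he0 (Sum.inl v0)).mpr rfl).2
    refine h1 (Subgroup.mem_sup_left (nrm_mem_NF ?_))
    rw [NF_eq_top (mem_Sq_iff.mpr h)]
    exact Subgroup.mem_top _
  have hn0 : ¬ ∃ c : Eˣ, bad (inc F E a) c = Bf a T e0 := by
    rintro ⟨c, hc⟩
    refine hI ⟨nrm F E c, ?_⟩
    ext p
    rw [bad_of_Bf hc, he0]
  have hn1 : ∃ c : Eˣ, bad (inc F E a) c = Bf a T e1 := by
    by_contra hn1
    obtain ⟨c, hc⟩ := real_symm haE (Bf_finite a hTf e1) (Bf_finite a hTf e0) (Bf_ns a T e1)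
      (Bf_ns a T e0) hn1 hn0
    rw [Bf_mul] at hc
    refine hI ⟨nrm F E c * x, ?_⟩
    ext p
    have h1 := he0 p
    have h2 := he1 p
    have h3 : p ∈ bad a x → p ∈ T := fun h => Set.mem_insert_of_mem _ h
    rw [bad_mul, Set.mem_symmDiff, bad_of_Bf hc, map_mul, bad_mul, Set.mem_symmDiff, ← h1]
    tauto
  obtain ⟨c, hc⟩ := hn1
  refine ⟨c, mem_NF_of_bad ?_, fun q hq => ?_⟩
  · ext p
    rw [bad_mul, Set.mem_symmDiff, bad_of_Bf hc, he1]
    simp
  · rw [hc] at hq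
    obtain ⟨p, hp, hqp, -⟩ := hq
    obtain ⟨v, rfl, hv⟩ := hTe p hp
    exact ⟨v, hv, hqp⟩

end Vale.Agent.P011UT
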