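import Vale.Agent.P011UT.Bad
import Vale.Agent.P011UT.Apx

/-!
The two-field norm lemma for a quadratic extension of number fields, with signs.
-/

set_option linter.all false

open NumberField IsDedekindDomain Module

namespace Vale.Agent.P011UT

open Vale.Agent.P011.Arith Vale.Agent.P011.Even

theorem lin_ind {F E : Type} [Field F] [Field E] [Algebra F E] {T : E}
    (hT' : ∀ c : F, algebraMap F E c ≠ T) : LinearIndependent F ![(1 : E), T] := by
  rw [LinearIndependent.pair_iff]
  intro x y hxy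
  have hy : y = 0 := by
    by_contra hy
    apply hT' (-x / y)
    have hy' : algebraMap F E y ≠ 0 := (_root_.map_ne_zero _).mpr hy
    rw [Algebra.smul_def, Algebra.smul_def, mul_one] at hxy
    rw [map_div₀, map_neg, div_eq_iff hy']
    linear_combination -hxy
  subst hy
  rw [zero_smul, add_zero, smul_eq_zero] at hxy
  exact ⟨hxy.resolve_right one_ne_zero, rfl⟩

/-- The norm of a quadratic extension. -/
theorem norm_quad {F E : Type} [Field F] [Field E] [Algebra F E] (h2 : finrank F E = 2) {a : F}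
    {T : E} (hT : T * T = algebraMap F E a) (hT' : ∀ c : F, algebraMap F E c ≠ T) (u v : F) :
    Algebra.norm F (algebraMap F E u + algebraMap F E v * T) = u ^ 2 - a * v ^ 2 := by
  have : FiniteDimensional F E := Module.finite_of_finrank_pos (by rw [h2]; exact two_pos)
  let b : Basis (Fin 2) F E :=
    basisOfLinearIndependentOfCardEqFinrank (lin_ind hT') (by simp [h2])
  have hb0 : b 0 = 1 := by simp [b]
  have hb1 : b 1 = T := by simp [b]
  have hrepr : ∀ x y : F, b.repr (algebraMap F E x + algebraMap F E y * T) 0 = x ∧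
      b.repr (algebraMap F E x + algebraMap F E y * T) 1 = y := by
    intro x y
    have h1 : algebraMap F E x + algebraMap F E y * T = x • b 0 + y • b 1 := by
      rw [hb0, hb1, Algebra.smul_def, Algebra.smul_def, mul_one]
    rw [h1, map_add, map_smul, map_smul, b.repr_self, b.repr_self]
    constructor <;> simp
  rw [Algebra.norm_eq_matrix_det b, Matrix.det_fin_two]
  simp only [Algebra.leftMulMatrix_eq_repr_mul, hb0, hb1, mul_one]
  have h3 : (algebraMap F E u + algebraMap F E v * T) * T =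
      algebraMap F E (a * v) + algebraMap F E u * T := by
    rw [add_mul, mul_assoc, hT, map_mul]
    ring
  rw [h3, (hrepr _ _).1, (hrepr _ _).2, (hrepr _ _).1, (hrepr _ _).2]
  ring

/-- A quadratic extension is generated by a square root. -/
theorem exists_sqrt {F E : Type} [Field F] [CharZero F] [Field E] [Algebra F E]
    (h2 : finrank F E = 2) : ∃ (a : Fˣ) (θ : E), θ * θ = algebraMap F E a ∧
      (∀ c : F, algebraMap F E c ≠ θ) ∧ ¬ IsSquare (a : F) := by
  have : FiniteDimensional F E := Module.finite_of_finrank_pos (by rw [h2]; exact two_pos)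
  obtain ⟨α, hα⟩ : ∃ α : E, ∀ c : F, algebraMap F E c ≠ α := by
    by_contra h
    push Not at h
    have h1 : finrank F E ≤ 1 := finrank_le_one (1 : E) fun w => by
      obtain ⟨c, hc⟩ := h w
      exact ⟨c, by rw [Algebra.smul_def, mul_one, hc]⟩
    omega
  let b : Basis (Fin 2) F E :=
    basisOfLinearIndependentOfCardEqFinrank (lin_ind hα) (by simp [h2])
  have hb0 : b 0 = 1 := by simp [b]
  have hb1 : b 1 = α := by simp [b]
  have h3 := b.sum_repr (α * α)
  rw [Fin.sum_univ_two, hb0, hb1, Algebra.smul_def, Algebra.smul_def, mul_one] at h3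
  set w := b.repr (α * α) 0
  set u := b.repr (α * α) 1
  have hθ : (algebraMap F E 2 * α - algebraMap F E u) * (algebraMap F E 2 * α - algebraMap F E u) =
      algebraMap F E (4 * w + u ^ 2) := by
    rw [map_add, map_mul, map_pow, map_ofNat, map_ofNat]
    linear_combination (-4 : E) * h3
  have hθ' : ∀ c : F, algebraMap F E c ≠ algebraMap F E 2 * α - algebraMap F E u := by
    intro c hc
    apply hα ((c + u) / 2)
    have h20 : algebraMap F E 2 ≠ 0 := (_root_.map_ne_zero _).mpr two_ne_zero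
    rw [map_div₀, map_add, div_eq_iff h20]
    linear_combination hc
  have hns : ¬ IsSquare (4 * w + u ^ 2) := by
    rintro ⟨r, hr⟩
    rw [hr, map_mul] at hθ
    rcases mul_self_eq_mul_self_iff.mp hθ with h | h
    · exact hθ' r h.symm
    · exact hθ' (-r) (by rw [map_neg]; exact h.symm)
  have h0 : 4 * w + u ^ 2 ≠ 0 := fun h => hns (by rw [h]; exact IsSquare.zero)
  exact ⟨Units.mk0 _ h0, _, hθ, hθ', hns⟩

variable {F : Type} [Field F] [NumberField F]

/-- The element `y`. -/
theorem exists_y {a : Fˣ} {A : Set (HeightOneSpectrum (𝓞 F))} (hA : A.Finite)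
    {E : Type} [Field E] [NumberField E] [Algebra F E] {c x : Fˣ} {c0 : Eˣ}
    (hc : ∀ v ∈ A, v.valuation F (c : F) ≤ 1) (h1 : nrm F E c0 * x ∈ NF a)
    (h2 : ∀ v ∈ A, ∀ w : HeightOneSpectrum (𝓞 E), Ab w v →
      c0 ∈ NF (inc F E a) ⊔ LS (w.valuation E))
    (h3 : ∀ ψ : E →+* ℝ, c0 ∈ NF (inc F E a) ⊔ LSR ψ) (g : Fˣ) :
    ∃ y : Eˣ, x / nrm F E y ∈ NF a ∧ (∀ φ : F →+* ℝ, nrm F E y ∈ LSR φ) ∧
      (∀ v ∈ A, v.valuation F (((nrm F E y : Fˣ) : F) - 1) < v.valuation F (c : F)) ∧
      ∀ v ∈ A, ∀ w : HeightOneSpectrum (𝓞 E), Ab w v →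
        w.valuation E ((y : E) - 1) < w.valuation E (algebraMap F E g) := by
  classical
  have hη : ∀ v : HeightOneSpectrum (𝓞 F), ∃ η : Fˣ, v ∈ A → ∀ y : E,
      (∀ w : HeightOneSpectrum (𝓞 E), Ab w v →
        w.valuation E (y - 1) < w.valuation E (algebraMap F E η)) →
      v.valuation F (Algebra.norm F y - 1) < v.valuation F (c : F) := by
    intro v
    by_cases hv : v ∈ A
    · obtain ⟨η, hη⟩ := norm_near_one (E := E) v c (hc v hv)
      exact ⟨η, fun _ => hη⟩
    · exact ⟨1, fun h => absurd h hv⟩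
  choose η hη using hη
  have hρ : ∀ v : HeightOneSpectrum (𝓞 F), ∃ ρ : Fˣ, v.valuation F (ρ : F) ≤ 1 ∧
      v.valuation F (ρ : F) ≤ v.valuation F (g : F) ∧
      v.valuation F (ρ : F) ≤ v.valuation F (η v : F) := by
    intro v
    obtain ⟨r, hr⟩ := v.valuation_surjective F
      (min 1 (min (v.valuation F (g : F)) (v.valuation F (η v : F))))
    have hr0 : r ≠ 0 := by
      rintro rfl
      rw [map_zero] at hr
      exact min_ne one_ne_zero (min_ne ((Valuation.ne_zero_iff _).mpr g.ne_zero)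
        ((Valuation.ne_zero_iff _).mpr (η v).ne_zero)) hr.symm
    refine ⟨Units.mk0 r hr0, ?_, ?_, ?_⟩ <;> rw [Units.val_mk0, hr]
    · exact min_le_left _ _
    · exact (min_le_right _ _).trans (min_le_left _ _)
    · exact (min_le_right _ _).trans (min_le_right _ _)
  choose ρ hρ1 hρ2 hρ3 using hρ
  choose be hbe using fun w : HeightOneSpectrum (𝓞 E) => exists_below (F := F) w
  have hAE : (ov E A).Finite := ov_finite hA
  obtain ⟨z, hz, t, ht⟩ := near_norm hAE (inc F E a) c0
    (by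
      rintro w ⟨v, hv, hw⟩
      exact h2 v hv w hw) (fun w => inc F E (ρ (be w)))
  have hzt : z * t ^ 2 ∈ NF (inc F E a) := Subgroup.mul_mem _ hz (Sq_le_NF _ ⟨t, rfl⟩)
  have hne : ∀ w : HeightOneSpectrum (𝓞 E),
      w.valuation E ((inc F E (ρ (be w)) : Eˣ) : E) ≠ 0 := fun w =>
    (Valuation.ne_zero_iff _).mpr (Units.ne_zero _)
  obtain ⟨u, hu, hu1, hu2⟩ := sgn_norm hAE (inc F E a) (c0 / (z * t ^ 2))
    (fun ψ => Subgroup.div_mem _ (h3 ψ) (Subgroup.mem_sup_left hzt)) _ hne
  have hy : ∀ v ∈ A, ∀ w : HeightOneSpectrum (𝓞 E), Ab w v →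
      w.valuation E ((((c0 / (z * t ^ 2) * u)⁻¹ : Eˣ) : E) - 1) <
        w.valuation E (algebraMap F E (ρ v)) := by
    intro v hv w hw
    have hbw : be w = v := below_unique (hbe w) hw
    have hle : w.valuation E ((inc F E (ρ (be w)) : Eˣ) : E) ≤ 1 := by
      rw [inc_val, hbw]
      exact (val_le_one_iff hw _).mpr (hρ1 v)
    have m1 : c0 / (z * t ^ 2) ∈ UG (w.valuation E) _ (hne w) hle := ht w ⟨v, hv, hw⟩
    have m2 : u ∈ UG (w.valuation E) _ (hne w) hle := hu1 w ⟨v, hv, hw⟩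
    have m3 := mem_UG.mp (Subgroup.inv_mem _ (Subgroup.mul_mem _ m1 m2))
    rwa [inc_val, hbw] at m3
  refine ⟨(c0 / (z * t ^ 2) * u)⁻¹, ?_, fun φ => ?_, fun v hv => ?_, fun v hv w hw => ?_⟩
  · have e : x / nrm F E (c0 / (z * t ^ 2) * u)⁻¹ =
        nrm F E c0 * x * nrm F E (u / (z * t ^ 2)) := by
      rw [map_inv, div_inv_eq_mul, map_mul, _root_.map_div, _root_.map_div, div_mul_eq_mul_div,
        mul_div_assoc, mul_comm (nrm F E c0) x, mul_assoc]
    rw [e]
    exact Subgroup.mul_mem _ h1 (nrm_mem_NF (Subgroup.div_mem _ hu hzt))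
  · rw [mem_LSR, nrm_val, sign_norm]
    have e : {ψ : E →+* ℝ | ψ.comp (algebraMap F E) = φ ∧
        ψ (((c0 / (z * t ^ 2) * u)⁻¹ : Eˣ) : E) < 0} = ∅ := by
      ext ψ
      simp only [Set.mem_ofPred_eq, Set.mem_empty_iff_false, iff_false, not_and, not_lt]
      exact fun _ => (mem_LSR.mp (Subgroup.inv_mem _ (hu2 ψ))).le
    rw [e]
    simp
  · rw [nrm_val]
    exact hη v hv _ fun w hw => (hy v hv w hw).trans_le ((val_le_val_iff hw _ _).mpr (hρ3 v))
  · exact (hy v hv w hw).trans_le ((val_le_val_iff hw _ _).mpr (hρ2 v))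

/-- **The two-field norm lemma**, quadratic case. -/
theorem two_pos {L : Type} [Field L] [NumberField L] [Algebra F L] (h2 : finrank F L = 2)
    {A : Set (HeightOneSpectrum (𝓞 F))} (hA : A.Finite) :
    ∃ v0 : HeightOneSpectrum (𝓞 F), v0 ∉ A ∧ ∀ c : F, c ≠ 0 → (∀ v ∈ A, v.valuation F c ≤ 1) →
      ∀ x : F, x ≠ 0 → (∀ φ : F →+* ℝ, 0 < φ x) →
        (∀ v ∈ A, v.valuation F (x - 1) < v.valuation F (4 * c)) →
      ∃ V : Set (HeightOneSpectrum (𝓞 F)), V.Finite ∧ Disjoint V A ∧
        ∀ (E : Type) [Field E] [NumberField E] [Algebra F E],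
          (∀ v : HeightOneSpectrum (𝓞 F), v = v0 ∨ v ∈ V →
            Nonempty (E →ₐ[F] v.adicCompletion F)) →
          ∀ g : F, g ≠ 0 →
          ∃ (x1 : L) (y : E), y ≠ 0 ∧ x = Algebra.norm F x1 * Algebra.norm F y ∧
            (∀ ψ : L →+* ℝ, 0 < ψ x1) ∧
            (∀ v ∈ A, ∀ w : HeightOneSpectrum (𝓞 L), Ab w v →
              w.valuation L (x1 - 1) < w.valuation L (algebraMap F L c)) ∧
            (∀ v ∈ A, ∀ w : HeightOneSpectrum (𝓞 E), Ab w v →
              w.valuation E (y - 1) < w.valuation E (algebraMap F E g)) := by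
  obtain ⟨a, θ, hθ, hθ', ha⟩ := exists_sqrt h2
  obtain ⟨v0, hv0A, hv0, hI⟩ := exists_v0 ha hA
  refine ⟨v0, hv0A, fun c hc0 hc x hx0 hxR hxA => ?_⟩
  have h4c : ∀ v ∈ A, v.valuation F (4 * c) ≤ v.valuation F 4 := fun v hv => by
    rw [map_mul]
    exact mul_le_of_le_one_right' (hc v hv)
  have hgood : ∀ v ∈ A, (Sum.inl v : Pl F) ∉ bad a (Units.mk0 x hx0) := fun v hv h =>
    h (Subgroup.mem_sup_right (LS_of_close ((hxA v hv).trans_le (h4c v hv))))
  refine ⟨{v | (Sum.inl v : Pl F) ∈ bad a (Units.mk0 x hx0)},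
    (bad_finite a _).preimage Sum.inl_injective.injOn,
    Set.disjoint_left.mpr fun v hv hvA => hgood v hvA hv, fun E _ _ _ hhom g hg => ?_⟩
  have hfd : FiniteDimensional F E := Module.Finite.of_restrictScalars_finite ℚ F E
  obtain ⟨c0, hc1, hc2⟩ := exists_c (E := E) hv0 hI (Units.mk0 x hx0) hxR hhom
  have h4c0 : (4 : F) * c ≠ 0 := mul_ne_zero (by norm_num) hc0
  have h4c1 : ∀ v ∈ A, v.valuation F (4 * c) ≤ 1 := fun v hv =>
    (h4c v hv).trans (val_four_le _)
  obtain ⟨y, hy1, hy2, hy3, hy4⟩ := exists_y hA (c := Units.mk0 _ h4c0) h4c1 hc1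
    (fun v hv w hw => by
      by_contra h
      obtain ⟨v', hv', hw'⟩ := hc2 (Sum.inl w) h
      have e : v = v' := below_unique hw hw'
      subst e
      rcases hv' with rfl | hv'
      · exact hv0A hv
      · exact hgood v hv hv')
    (fun ψ => by
      by_contra h
      obtain ⟨v', -, hw'⟩ := hc2 (Sum.inr ψ) h
      exact hw') (Units.mk0 g hg)
  have hbR : ∀ φ : F →+* ℝ, 0 < φ ((Units.mk0 x hx0 / nrm F E y : Fˣ) : F) := fun φ =>
    mem_LSR.mp (Subgroup.div_mem _ (show Units.mk0 x hx0 ∈ LSR φ from hxR φ) (hy2 φ))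
  have hva : ∀ v : HeightOneSpectrum (𝓞 F), v.valuation F (a : F) ≠ 0 := fun v =>
    (Valuation.ne_zero_iff _).mpr a.ne_zero
  have hvc : ∀ v : HeightOneSpectrum (𝓞 F), v.valuation F c ≠ 0 := fun v =>
    (Valuation.ne_zero_iff _).mpr hc0
  obtain ⟨X, Y, hXY, hloc, hpos⟩ := conic ha hy1 hbR hA (fun _ => c) (fun v hv => ⟨hc0, hc v hv⟩)
    (fun v hv => by
      have hne : v.valuation F (4 * c) ≠ 0 := (Valuation.ne_zero_iff _).mpr h4c0
      have m1 : Units.mk0 x hx0 ∈ UG (v.valuation F) _ hne (h4c1 v hv) := hxA v hv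
      have m2 : nrm F E y ∈ UG (v.valuation F) _ hne (h4c1 v hv) := hy3 v hv
      exact mem_UG.mp (Subgroup.div_mem _ m1 m2))
    (fun v => min (v.valuation F c) (v.valuation F c / v.valuation F (a : F)))
    (fun v => min_ne (hvc v) (div_ne_zero (hvc v) (hva v)))
  refine ⟨algebraMap F L X + algebraMap F L Y * θ, y, y.ne_zero, ?_, fun ψ => ?_,
    fun v hv w hw => ?_, hy4⟩
  · have hNy : Algebra.norm F (y : E) ≠ 0 := Algebra.norm_ne_zero_iff.mpr y.ne_zero
    rw [norm_quad h2 hθ hθ', ← hXY, Units.val_div_eq_div_val, Units.val_mk0, nrm_val,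
      div_mul_cancel₀ _ hNy]
  · have hθ0 : ψ θ ≠ 0 := (_root_.map_ne_zero ψ).mpr fun h => hθ' 0 (by rw [map_zero, h])
    have e1 : ψ (algebraMap F L a) = ψ θ * ψ θ := by rw [← hθ, map_mul]
    have h3 : 0 < ψ (algebraMap F L X) := hpos (ψ.comp (algebraMap F L)) (by
      rw [RingHom.comp_apply, e1]
      exact mul_self_pos.mpr hθ0)
    have h4 := hbR (ψ.comp (algebraMap F L))
    rw [hXY, map_sub, map_mul, map_pow, map_pow, RingHom.comp_apply, RingHom.comp_apply,
      RingHom.comp_apply, e1] at h4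
    rw [map_add, map_mul]
    by_contra h5
    have h6 := not_lt.mp h5
    nlinarith [mul_nonneg (neg_nonneg.mpr h6)
      (show 0 ≤ ψ (algebraMap F L X) - ψ (algebraMap F L Y) * ψ θ by linarith)]
  · obtain ⟨h3, h4⟩ := hloc v hv
    rw [lt_min_iff, lt_div_iff₀ (zero_lt_iff.mpr (hva v))] at h4
    rw [add_sub_right_comm]
    refine (w.valuation L).map_add_lt ?_ ?_
    · rw [← map_one (algebraMap F L), ← map_sub, val_lt_val_iff hw]
      exact h3
    · have h5 : v.valuation F (Y * (Y * a)) < v.valuation F (c * c) := by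
        rw [map_mul, map_mul, map_mul]
        exact mul_lt_mul'' h4.1 h4.2 zero_le zero_le
      rw [← val_lt_val_iff hw] at h5
      have e : algebraMap F L (Y * (Y * a)) =
          (algebraMap F L Y * θ) * (algebraMap F L Y * θ) := by
        rw [map_mul, map_mul, ← hθ]
        ring
      rw [e, map_mul (algebraMap F L), map_mul (w.valuation L), map_mul (w.valuation L)
        (algebraMap F L c)] at h5
      by_contra h6
      exact absurd h5 (not_lt.mpr (mul_le_mul' (not_lt.mp h6) (not_lt.mp h6)))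

end Vale.Agent.P011UT
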